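import Vale.Agent.P275RH.Blk

/-!
# P275, block BX: the big circle of a branched covering is a meridian
-/

open scoped Real Topology
open Set Filter Metric Complex

noncomputable section

namespace Vale.Agent.P275BX

open Vale.Agent.P275ST Vale.Agent.P275RH

/-- the small circle -/
def wz (l : ℝ) (N : ℕ) (θ : ℝ) : ℂ := l * cexp ((-(θ / N) : ℝ) * I)

variable {l : ℝ} {N : ℕ}

theorem wz_norm (hl : 0 < l) (θ : ℝ) : ‖wz l N θ‖ = l := by
  rw [wz, norm_mul, norm_exp_ofReal_mul_I, mul_one, norm_real, Real.norm_of_nonneg hl.le]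

theorem wz_ne (hl : 0 < l) (θ : ℝ) : wz l N θ ≠ 0 := norm_pos_iff.1 ((wz_norm hl θ).symm ▸ hl)

theorem wz_pow (hN : 0 < N) (θ : ℝ) :
    (wz l N θ)⁻¹ ^ N = (l⁻¹ ^ N : ℝ) * cexp (θ * I) := by
  have : (N : ℂ) ≠ 0 := Nat.cast_ne_zero.2 hN.ne'
  rw [wz, mul_inv, mul_pow, ← exp_neg, ← exp_nat_mul]
  push_cast
  congr 2
  field_simp

theorem wz_add (hN : 0 < N) (θ s : ℝ) :
    wz l N (θ - 2 * π * N * s) = wz l N θ * cexp (2 * π * s * I) := by
  have : (N : ℂ) ≠ 0 := Nat.cast_ne_zero.2 hN.ne'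
  rw [wz, wz, mul_assoc (l : ℂ), ← exp_add]
  push_cast
  congr 2
  field_simp
  ring

theorem wz_inj (hl : 0 < l) (hN : 0 < N) {θ θ' : ℝ} (h : wz l N θ = wz l N θ') :
    ∃ k : ℤ, θ' = θ + k * (2 * π * N) := by
  have n : (N : ℂ) ≠ 0 := Nat.cast_ne_zero.2 hN.ne'
  obtain ⟨k, hk⟩ := exp_eq_exp_iff_exists_int.1 (mul_left_cancel₀ (ofReal_ne_zero.2 hl.ne') h)
  refine ⟨k, ofReal_injective (mul_right_cancel₀ (mul_ne_zero (inv_ne_zero n) I_ne_zero) ?_)⟩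
  push_cast at hk ⊢
  have e : (N : ℂ) * (N : ℂ)⁻¹ = 1 := mul_inv_cancel₀ n
  linear_combination hk - k * 2 * π * I * e

theorem wz_sur (hl : 0 < l) (hN : 0 < N) {θ : ℝ} {w : ℂ}
    (h : w⁻¹ ^ N = (l⁻¹ ^ N : ℝ) * cexp (θ * I)) :
    ∃ j : Fin N, wz l N (θ + 2 * π * (j : ℕ)) = w := by
  have n : (N : ℂ) ≠ 0 := Nat.cast_ne_zero.2 hN.ne'
  have : NeZero N := ⟨hN.ne'⟩
  rw [← wz_pow hN] at h
  have a := wz_ne (N := N) hl θ
  have w0 : w ≠ 0 := fun e => by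
    rw [e, inv_zero, zero_pow hN.ne'] at h
    exact pow_ne_zero N (inv_ne_zero a) h.symm
  obtain ⟨j, hj, e⟩ := (isPrimitiveRoot_exp N hN.ne').eq_pow_of_pow_eq_one
    (ξ := wz l N θ * w⁻¹) (by rw [mul_pow, h, ← mul_pow, mul_inv_cancel₀ a, one_pow])
  refine ⟨⟨j, hj⟩, ?_⟩
  have b := wz_add (l := l) hN (θ + 2 * π * j) (j / N)
  have c : θ + 2 * π * j - 2 * π * N * (j / N) = θ := by
    have : (N : ℝ) ≠ 0 := Nat.cast_ne_zero.2 hN.ne'
    field_simp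
    ring
  have d : cexp (2 * π * ((j / N : ℝ) : ℂ) * I) = wz l N θ * w⁻¹ := by
    rw [← e, ← exp_nat_mul]
    push_cast
    congr 1
    ring
  rw [c, d] at b
  have f : wz l N θ * (w - wz l N (θ + 2 * π * j)) = 0 := by
    have g : w * w⁻¹ = 1 := mul_inv_cancel₀ w0
    linear_combination w * b + wz l N (θ + 2 * π * j) * wz l N θ * g
  exact (sub_eq_zero.1 ((mul_eq_zero.1 f).resolve_left a)).symm

/-- **the big circle is a meridian** -/
theorem bcx : BCX := by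
  intro C _ _ _ p ⟨f, k, b, N, ζ, ρ, cont, cl, fin, two, mono, cov, pos, hol, eq, far⟩
  obtain ⟨m, rfl⟩ : ∃ m, k = m + 1 := ⟨k - 1, by omega⟩
  obtain ⟨δ, δ0, hδ⟩ := hol.mer
  obtain ⟨ε, ε0, hε⟩ := Metric.mem_nhds_iff.1
    (ζ.open_target.mem_nhds (hol.zero ▸ ζ.map_source hol.mem))
  have t : Tendsto (fun l : ℝ => l⁻¹ ^ N) (𝓝[>] 0) atTop :=
    (tendsto_pow_atTop pos.ne').comp tendsto_inv_nhdsGT_zero
  obtain ⟨l, ⟨l2, l3⟩, l0, l1⟩ := (((t.eventually_gt_atTop ρ).and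
    (eventually_all.2 fun i => t.eventually_gt_atTop (2 * ‖b i‖))).and
      (Ioo_mem_nhdsGT (lt_min δ0 ε0))).exists
  have tg : ∀ θ, wz l N θ ∈ ζ.target := fun θ =>
    hε (mem_ball_zero_iff.2 ((wz_norm l0 θ).trans_lt (l1.trans_le (min_le_right _ _))))
  have ne : ∀ θ, ζ.symm (wz l N θ) ∈ ({p}ᶜ : Set C) := fun θ e =>
    wz_ne l0 θ ((ζ.right_inv (tg θ)).symm.trans ((congrArg ζ e).trans hol.zero))
  have k : ∀ {w : ℂ} (y : Pc p) (c : Path y y),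
      (∀ t, (c t : C) = ζ.symm (w * cexp (2 * π * t * I))) → ‖w‖ = l →
      IsMeridian p y (lp (.mk c)) := fun y c hc hw => by
    have := hδ _ (norm_pos_iff.1 (hw ▸ l0)) (hw.trans_lt (l1.trans_le (min_le_left _ _))) y y c
      (1 : FundamentalGroup (Pc p) y).toPath hc
    rwa [bpt_self, inv_one, one_mul, mul_one] at this
  refine ⟨⟨f, m, b, N, l⁻¹ ^ N, fun θ => ⟨_, ne θ⟩, cont, cl, fin, mono, cov,
    (ζ.continuousOn_symm.comp_continuous (by unfold wz; fun_prop) tg).subtype_mk _,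
    fun i => by linarith [l3 i], fun θ => ?_, fun θ θ' e => ?_, fun θ y e => ?_, fun θ => ?_⟩,
    fun a => ?_⟩
  · rw [eq _ (ζ.map_target (tg θ)), ζ.right_inv (tg θ), wz_pow pos]
  · exact wz_inj l0 pos (ζ.symm.injOn (tg θ) (tg θ') (congrArg Subtype.val e))
  · have s : y.1 ∈ ζ.source := far y (by
      rw [e, norm_mul, norm_exp_ofReal_mul_I, mul_one, norm_real,
        Real.norm_of_nonneg (by positivity)]
      exact l2)
    obtain ⟨j, hj⟩ := wz_sur l0 pos ((eq y s).symm.trans e)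
    exact ⟨j, Subtype.ext ((congrArg ζ.symm hj).trans (ζ.left_inv s))⟩
  · have := wz_add (l := l) pos (θ + 2 * π * N) 1
    rw [mul_one, add_sub_cancel_right, ofReal_one, mul_one, exp_two_pi_mul_I, mul_one] at this
    exact Subtype.ext (congrArg ζ.symm this.symm)
  · exact k _ _ (fun t => congrArg ζ.symm (wz_add pos a t)) (wz_norm l0 a)

end Vale.Agent.P275BX
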